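import Vale.Agent.P237.Quant.TailPartsLink
import Vale.Agent.P237.Quant.RowTables
import Vale.Agent.P237.Quant.EnvelopeTableData.N86
import Vale.Agent.P237.Quant.TailData.N95.tailN95P0
import Vale.Agent.P237.Quant.TailData.N95.tailN95P1
import Vale.Agent.P237.Quant.TailData.N95.tailN95P2
import Vale.Agent.P237.Quant.TailData.N95.tailN95P3
import Vale.Agent.P237.Quant.TailData.N95.tailN95N0
import Vale.Agent.P237.Quant.TailData.N95.tailN95N1

/-!
The tail inequalities of the rows of both sides in dimension 95. Generated.
-/

namespace Vale.Agent.P237.Quant

open TailCert TailData

/-- The tail inequalities of `negRow14` in dimension 95. -/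
theorem negRow14_tailAt95 : negRow14.TailAt 94 := by
  intro P hP
  simp only [negRow14, binsOf, List.mem_cons, List.not_mem_nil, or_false] at hP
  rcases hP with rfl | rfl
  · exact tailBin_negParts tailN95N0_check tailN95N0_parts envTable95_check (by decide +kernel)
  · exact tailBin_negParts tailN95N1_check tailN95N1_parts envTable95_check (by decide +kernel)

/-- The tail inequalities of `posRow55` in dimension 95. -/
theorem posRow55_tailAt95 : posRow55.TailAt 94 := by
  intro P hP
  simp only [posRow55, posRowB, posCuts14, posCuts16, binsOf, List.mem_cons, List.not_mem_nil, or_false] at hP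
  rcases hP with rfl | rfl | rfl | rfl
  · exact tailBin_posParts tailN95P0_check tailN95P0_parts envTable95_check (by decide +kernel)
  · exact tailBin_posParts tailN95P1_check tailN95P1_parts envTable95_check (by decide +kernel)
  · exact tailBin_posParts tailN95P2_check tailN95P2_parts envTable95_check (by decide +kernel)
  · exact tailBin_posParts tailN95P3_check tailN95P3_parts envTable95_check (by decide +kernel)

end Vale.Agent.P237.Quant
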